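import Vale.Agent.P162.H790.Data

/-!
# The data of the abstract theorem, relaxed matching condition
-/

namespace Vale.Agent.P162.H790

open Equiv Finset
open Vale.Agent.P162.S2 Vale.Agent.P162.S2.Abs
open scoped InnerProductSpace

/-- **The data of the abstract theorem** for a network with the unique path property, for the red
lines at least `5/6` of the deck. -/
theorem qlaw_data5 {X : Type} [Fintype X] [DecidableEq X] (W : Net X) {α : Type} [Fintype α]
    [DecidableEq α] {D k : ℕ} {κ : ℝ} (hUP : UP W 0 D) (hD : 1 ≤ D)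
    (heven : Even (Fintype.card α))
    (hk : √(1 / 2 : ℝ) ^ k ≤ (Fintype.card α : ℝ) ^ (-κ))
    (hm : 5 * Fintype.card X ≤ 6 * Fintype.card α) :
    Data (W.qlaw D (gInd (α := α) W D k)) κ where
  even := heven
  nonneg := Net.qlaw_nonneg (gInd_nonneg W D k)
  sum_le := by
    rw [Net.sum_qlaw]
    exact Net.avg_le_of_le zero_le_one fun f => Net.avg_le_of_le zero_le_one fun r =>
      gInd_le_one W D k f r
  symm := Net.qlaw_inv _ _
  class_fn := Net.qlaw_conj (gInd_relab W D k)
  psd := by
    intro F
    rw [inner_op_qlaw]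
    exact avg_nonneg fun f => avg_nonneg fun r => mul_nonneg (gInd_nonneg W D k f r) (sq_nonneg _)
  fix_le := by
    intro S
    refine (fix_le W hUP S).trans ?_
    gcongr
  matching := by
    obtain ⟨ι, hι, p, M, h1, h2, h3, h4, h5⟩ := qlaw_matching (α := α) W (k := k) hD
    exact ⟨ι, hι, p, M, h1, h2, h3, fun i => by have := h4 i; omega, h5⟩

end Vale.Agent.P162.H790
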